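import Vale.Agent.P153.R2.Final.FreeT

/-!
Uniform integer Lipschitz heights on the triangular lattice: unconditional convergence to a nonzero
multiple of the Gaussian free field in the plane (modulo constants) and in bounded Jordan domains
(free boundary values `±1`), and comparison with prescribed boundary values `±1`.
-/

namespace Vale.Agent.Results.P153.AFreeGff

open MeasureTheory ProbabilityTheory Filter Topology

/-- Laws of random heights. -/
abbrev Law := Measure (ℤ × ℤ → ℤ)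

/-- `μ` has mass one. -/
abbrev Prob (μ : Law) : Prop := IsProbabilityMeasure μ

/-- The distance to the origin of the point `x.1 (1, 0) + x.2 (1/2, √3/2)` of the plane. -/
noncomputable def len (x : ℤ × ℤ) : ℝ := √((x.1 : ℝ) ^ 2 + x.1 * x.2 + (x.2 : ℝ) ^ 2)

/-- The uniform distribution on a finite set. -/
noncomputable def unif (s : Set (ℤ × ℤ → ℤ)) : Law := uniformOn s

/-- Expectation. -/
noncomputable def mean (μ : Law) (F : (ℤ × ℤ → ℤ) → ℝ) : ℝ := ∫ h, F h ∂μ

/-- Neighbours in the triangular lattice. -/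
def Adj (x y : ℤ × ℤ) : Prop := len (y - x) = 1

/-- The complement of the finite set `D` is connected. -/
def CoConnected (D : Finset (ℤ × ℤ)) : Prop :=
  ∀ x y, x ∉ D → y ∉ D → Relation.ReflTransGen (fun u v => Adj u v ∧ v ∉ D) x y

/-- Odd heights on `D` with steps `0, ±2` along the edges and with value `±1` at the boundary
vertices (those with a neighbour outside `D`); the value off `D` is a dummy. -/
def HeightsOn (D : Finset (ℤ × ℤ)) : Set (ℤ × ℤ → ℤ) :=
  {h | (∀ x, Odd (h x)) ∧ (∀ x ∈ D, ∀ y ∈ D, Adj x y → |h x - h y| ≤ 2) ∧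
    (∀ x ∈ D, (∃ y, Adj x y ∧ y ∉ D) → |h x| = 1) ∧ ∀ x, x ∉ D → h x = -1}

/-- The functions with the same differences as `a` on `B`. -/
def Pat (B : Finset (ℤ × ℤ)) (a : ℤ × ℤ → ℤ) : Set (ℤ × ℤ → ℤ) :=
  {h | ∀ x ∈ B, ∀ y ∈ B, h x - h y = a x - a y}

/-- `P` is the local limit, modulo constants, of the uniform measures on `HeightsOn (D n)`. -/
def IsLocalLimit (P : Law) (D : ℕ → Finset (ℤ × ℤ)) : Prop :=
  ∀ (B : Finset (ℤ × ℤ)) (a : ℤ × ℤ → ℤ),
    Tendsto (fun n => ((HeightsOn (D n) ∩ Pat B a).ncard : ℝ) / (HeightsOn (D n)).ncard) atTop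
      (𝓝 (P.real (Pat B a)))

/-- The hat function of the origin (affine on the triangles), in lattice coordinates. -/
noncomputable def hat (s t : ℝ) : ℝ := max 0 (1 - max |s| (max |t| |s + t|))

/-- The extension of `h` to the plane, affine on each triangle of the lattice, at the point `z`. -/
noncomputable def interp (h : ℤ × ℤ → ℤ) (z : ℝ × ℝ) : ℝ :=
  ∑ᶠ v : ℤ × ℤ, (h v : ℝ) * hat (z.1 - z.2 / √3 - v.1) (2 * z.2 / √3 - v.2)

/-- Smooth functions with compact support contained in `D`. -/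
def TestOn (D : Set (ℝ × ℝ)) (φ : ℝ × ℝ → ℝ) : Prop :=
  ContDiff ℝ ((⊤ : ℕ∞) : WithTop ℕ∞) φ ∧ HasCompactSupport φ ∧ tsupport φ ⊆ D

/-- Convergence in law of the random variables `X i` (under `μ i`) to the centred Gaussian law
with variance `v`. -/
def ToGauss {ι : Type} (l : Filter ι) (μ : ι → Law) (_ : ∀ i, Prob (μ i))
    (X : ι → (ℤ × ℤ → ℤ) → ℝ) (v : ℝ) : Prop :=
  0 ≤ v ∧ TendstoInDistribution X l id μ (gaussianReal 0 v.toNNReal)

/-- `∫ |∇ψ|²`. -/
noncomputable def energy (ψ : ℝ × ℝ → ℝ) : ℝ :=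
  ∫ z, (fderiv ℝ ψ z (1, 0) ^ 2 + fderiv ℝ ψ z (0, 1) ^ 2)

/-- `⟨φ, (-Δ_D)⁻¹ φ⟩ = sup_ψ (2 ∫ φ ψ - ∫ |∇ψ|²)`, `ψ` smooth with compact support in `D`. -/
noncomputable def V (D : Set (ℝ × ℝ)) (φ : ℝ × ℝ → ℝ) : ℝ :=
  ⨆ ψ : {ψ // TestOn D ψ}, (2 * ∫ z, φ z * ψ.1 z) - energy ψ.1

/-- The triangles of the lattice. -/
abbrev Tri := (ℤ × ℤ) × Bool

/-- The corners of a triangle. -/
def corners (t : Tri) : Finset (ℤ × ℤ) :=
  if t.2 then {t.1 + (1, 0), t.1 + (0, 1), t.1 + (1, 1)}
  else {t.1, t.1 + (1, 0), t.1 + (0, 1)}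

/-- `p 0, p 1, …, p (n - 1), p 0` is a simple closed lattice polygon and `S` is the set of the
triangles enclosed by it: the edges of `p` are exactly the edges of the lattice which belong to
exactly one triangle of `S`. -/
def Encl {n : ℕ} (p : ZMod n → ℤ × ℤ) (S : Finset Tri) : Prop :=
  2 < n ∧ Function.Injective p ∧ (∀ i, Adj (p i) (p (i + 1))) ∧ ∀ a b, Adj a b →
    ((∃ i, s(p i, p (i + 1)) = s(a, b)) ↔ ∃! t, t ∈ S ∧ a ∈ corners t ∧ b ∈ corners t)

/-- The vertices of the domain: the corners of the enclosed triangles. -/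
def verts (S : Finset Tri) : Finset (ℤ × ℤ) := S.biUnion corners

/-- The heights of the domain enclosed by `p`: odd, with steps `0` or `±2` between adjacent
vertices, with values `±1` on the polygon (and the dummy value `0` off the domain). -/
def Heights {n : ℕ} (p : ZMod n → ℤ × ℤ) (S : Finset Tri) : Set (ℤ × ℤ → ℤ) :=
  {h | (∀ v ∈ verts S, Odd (h v)) ∧ (∀ i, |h (p i)| = 1) ∧
    (∀ v ∈ verts S, ∀ w ∈ verts S, Adj v w → |h v - h w| ≤ 2) ∧
    ∀ v, v ∉ verts S → h v = 0}

/-- The heights with the values `ξ` on the polygon. -/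
def HeightsB {n : ℕ} (p : ZMod n → ℤ × ℤ) (S : Finset Tri) (ξ : ZMod n → ℤ) : Set (ℤ × ℤ → ℤ) :=
  {h ∈ Heights p S | ∀ i, h (p i) = ξ i}

/-- The functions which differ by at most `2` from an element of `A`. -/
def Near (A : Set (ℤ × ℤ → ℤ)) : Set (ℤ × ℤ → ℤ) := {g | ∃ h ∈ A, ∀ v, |h v - g v| ≤ 2}

/-- The point of the plane. -/
noncomputable def pt (v : ℤ × ℤ) : ℝ × ℝ := (v.1 + v.2 / 2, √3 / 2 * v.2)

/-- The closed domain `D_δ`: the union of the enclosed triangles of the lattice of mesh `δ`. -/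
noncomputable def region (δ : ℝ) (S : Finset Tri) : Set (ℝ × ℝ) :=
  {z | ∃ t ∈ S, z ∈ convexHull ℝ ((fun v => δ • pt v) '' (corners t : Set (ℤ × ℤ)))}

open Classical in
/-- `h_δ(φ) = ∫ h_δ(z) φ(z) dz`, where `h_δ` is affine on each triangle of `D_δ` and is extended by
`0` outside `D_δ`. -/
noncomputable def fld (S : Finset Tri) (δ : ℝ) (φ : ℝ × ℝ → ℝ) (h : ℤ × ℤ → ℤ) : ℝ :=
  ∫ z : ℝ × ℝ, (if z ∈ region δ S then interp h (z.1 / δ, z.2 / δ) else 0) * φ z

/-- Lattice polygons `p n` of mesh `δ n → 0` approximating the domain `D`: the vertices of the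
polygons are eventually within any given distance of `D`, and every compact subset of `D` is
eventually enclosed. (Both follow from the uniform convergence of the boundary curves.) -/
def Approx (D : Set (ℝ × ℝ)) (δ : ℕ → ℝ) (N : ℕ → ℕ) (p : ∀ n, ZMod (N n) → ℤ × ℤ)
    (S : ℕ → Finset Tri) : Prop :=
  (∀ n, 0 < δ n ∧ Encl (p n) (S n)) ∧ Tendsto δ atTop (𝓝 0) ∧
  (∀ ε > 0, ∀ᶠ n in atTop, ∀ i, ∃ z ∈ D, dist (δ n • pt (p n i)) z < ε) ∧
  ∀ K ⊆ D, IsCompact K → ∀ᶠ n in atTop, K ⊆ region (δ n) (S n)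

/-- The thermodynamic limit `P` of the uniform odd heights (along all exhausting sequences of
finite domains with connected complement), the asymptotics of its variance with a positive constant
`κ`, the convergence in law to the Gaussian free field of the plane modulo constants, and the
convergence in law to the Dirichlet Gaussian free field in all bounded Jordan domains (images of the
open unit disc under homeomorphisms of the plane) for the boundary values `±1` left free. For all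
boundary values `±1`, the only possible normalisation is `c → √κ / a`, and the law of the heights
and the one for free boundary values `±1` satisfy the criterion of Strassen for the existence of a
coupling with distance at most `2` everywhere. -/
theorem result : ∃ P : Law, ∃ hP : Prob P,
    (∀ D : ℕ → Finset (ℤ × ℤ), (∀ n, CoConnected (D n)) → (∀ x, ∀ᶠ n in atTop, x ∈ D n) →
      IsLocalLimit P D) ∧
    ∃ κ : ℝ, 0 < κ ∧
      Tendsto (fun x => mean P (fun h => ((h x - h 0 : ℤ) : ℝ) ^ 2) / Real.log (len x)) cofinite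
        (𝓝 (κ / Real.pi)) ∧
      (∀ f : ℝ × ℝ → ℝ, TestOn Set.univ f → ∫ x, f x = 0 →
        ToGauss (𝓝[>] 0) (fun _ => P) (fun _ => hP)
          (fun δ h => ∫ z : ℝ × ℝ, interp h (z.1 / δ, z.2 / δ) * f z)
          (κ * ∫ x, ∫ y, -(2 * Real.pi)⁻¹ *
            Real.log (√((x.1 - y.1) ^ 2 + (x.2 - y.2) ^ 2)) * f x * f y)) ∧
      (∀ (Φ : (ℝ × ℝ) ≃ₜ (ℝ × ℝ)) (D : Set (ℝ × ℝ)),
        D = Φ '' {z | z.1 ^ 2 + z.2 ^ 2 < 1} → ∀ (δ : ℕ → ℝ) (N : ℕ → ℕ)
        (p : ∀ n, ZMod (N n) → ℤ × ℤ) (S : ℕ → Finset Tri), Approx D δ N p S →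
        ∃ hL : ∀ n, Prob (unif (Heights (p n) (S n))), ∀ φ, TestOn D φ →
          ToGauss atTop (fun n => unif (Heights (p n) (S n))) hL (fun n => fld (S n) (δ n) φ)
            (κ * V D φ) ∧
          ∀ (ξ : ∀ n, ZMod (N n) → ℤ) (c m : ℕ → ℝ) (a : ℝ)
            (hB : ∀ n, Prob (unif (HeightsB (p n) (S n) (ξ n)))), (∀ n i, |ξ n i| = 1) →
            (∀ n, 0 < c n) → 0 < a → 0 < V D φ →
            ToGauss atTop (fun n => unif (HeightsB (p n) (S n) (ξ n))) hB
              (fun n h => (fld (S n) (δ n) φ h - m n) / c n) (a ^ 2 * V D φ) →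
            Tendsto c atTop (𝓝 (√κ / a))) ∧
      ∀ (n : ℕ) (p : ZMod n → ℤ × ℤ) (S : Finset Tri) (ξ : ZMod n → ℤ) (A : Set (ℤ × ℤ → ℤ)),
        Encl p S → (∀ i, |ξ i| = 1) →
        ((HeightsB p S ξ ∩ A).ncard : ℝ) / (HeightsB p S ξ).ncard ≤
          ((Heights p S ∩ Near A).ncard : ℝ) / (Heights p S).ncard :=
  Vale.Agent.P153.JG6.main6

end Vale.Agent.Results.P153.AFreeGff
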