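import Vale.Agent.P153.R2.Final.PosT

/-!
Uniform odd heights on the triangular lattice with the boundary values `1` and `-1` on two arcs:
the scaling limit of the heights.
-/

namespace Vale.Agent.Results.P153.ArcsGff

open Vale.Agent.P153.R2.Final.Thm

/-- For some `κ > 0` the heights converge to `u + √κ Φ_D`, for every marked Jordan domain and every
approximation of it. -/
theorem result : ∃ κ : ℝ, 0 < κ ∧ FieldTheorem κ :=
  field_lim

end Vale.Agent.Results.P153.ArcsGff
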