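import Vale.Agent.P153.R2.Final.Kap

/-!
Uniform odd heights on the triangular lattice with the boundary values `1` and `-1` on two arcs:
the scaling limits of the heights and of the interface.
-/

namespace Vale.Agent.Results.P153.ArcsGffSle4

open Vale.Agent.P153.R2.Final.Thm

/-- The heights converge to `u + √(8/π) Φ_D` and the interface converges to chordal `SLE_4`, for
every marked Jordan domain and every approximation of it. -/
theorem result : FieldTheorem (8 / Real.pi) ∧ CurveTheorem :=
  full_lim

end Vale.Agent.Results.P153.ArcsGffSle4
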