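import Vale.Agent.P153.H212.Free

/-!
Uniform odd heights (integer Lipschitz functions) on the triangular lattice: the scaling limits of
the heights and of the interface in every marked Jordan domain, with the exact constants, also for
free boundary values and in infinite volume.
-/

namespace Vale.Agent.Results.P153.ExactLimits

open Vale.Agent.P153.H212

/-- Every marked Jordan domain has lattice approximations; along all of them the heights converge
to `u + √(8/π) Φ_D` and the interface converges to chordal `SLE_4`; the heights in the whole plane
have the variance `(8/π²) log |x|` and converge to `√(8/π)` times the free field. -/
theorem result : Existence ∧ FieldTheorem ∧ CurveTheorem ∧ PlaneTheorem :=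
  all

end Vale.Agent.Results.P153.ExactLimits
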